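import Mathlib
import Vale.Agent.Results.P295.VenereauOddFamily

/-!
P295 (stable coordinate conjecture): all our results on Venereau-type polynomials in one statement.
-/

namespace Vale.Agent.Results.P295.AAllResults

open MvPolynomial
open Vale.Agent.Results.P295.VenereauFamily
open Vale.Agent.Results.P295.VenereauDiscriminant
open Vale.Agent.Results.P295.VenereauOddFamily

/-- the two families are linked: `Fam R d G` is equivalent to `y + a x v + b x^2 w + x^3 G'`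
as soon as `a^2 + 4 b = 4 d` modulo `x` -/
theorem link (R : Polynomial R4) (hR : ∀ n, R.coeff n ∈ Axw) (d : R4) (hd : d ∈ Axw)
    (G : R4) (hG : G ∈ Axvw) (a : R4) (ha : a ∈ Axw) (b : R4) (hb : b ∈ Axw) (h : R4)
    (hh : h ∈ Axw) (G' : R4) (hG' : G' ∈ Axvw) (hD : a ^ 2 + 4 * b = 4 * d + x * h) :
    ∃ φ : R4 ≃ₐ[ℂ] R4, φ x = x ∧
      φ (Fam R d G) = y + a * x * v + b * x ^ 2 * w + x ^ 3 * G' := by
  obtain ⟨φ1, h1x, h1⟩ := VenereauOddFamily.result.1 R hR d hd G hG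
  obtain ⟨φ2, h2x, h2⟩ := VenereauDiscriminant.result.1 0 Axw.zero_mem d hd a ha b hb h hh 0
    Axvw.zero_mem G' hG' (by rw [hD]; ring)
  have e : (y + 0 * x * v + d * x ^ 2 * w + x ^ 3 * 0 : R4) = y + x ^ 2 * d * w := by ring
  rw [e] at h2
  refine ⟨φ1.symm.trans φ2, ?_, ?_⟩
  · have hs : φ1.symm x = x := by rw [AlgEquiv.symm_apply_eq, h1x]
    rw [AlgEquiv.trans_apply, hs, h2x]
  · rw [AlgEquiv.trans_apply, ← h1, AlgEquiv.symm_apply_apply, h2]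

/-- **Result.** With `p = yu+z^2`, `v = xz+yp`, `w = x^2u-2xzp-yp^2` in `C[x,y,z,u]`:
(A)-(D) the classification of `y + a x v + b x^2 w + x^3 G` by `a^2+4b` modulo `x`;
(1)-(4) the family `Fam R d G`; (5) the link between the two families. -/
theorem result :
    ((∀ a ∈ Axw, ∀ b ∈ Axw, ∀ a' ∈ Axw, ∀ b' ∈ Axw, ∀ h ∈ Axw, ∀ G ∈ Axvw, ∀ G' ∈ Axvw,
      a' ^ 2 + 4 * b' = a ^ 2 + 4 * b + x * h →
      ∃ φ : R4 ≃ₐ[ℂ] R4, φ x = x ∧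
        φ (y + a * x * v + b * x ^ 2 * w + x ^ 3 * G)
          = y + a' * x * v + b' * x ^ 2 * w + x ^ 3 * G') ∧
    (∀ a ∈ Axw, ∀ b ∈ Axw, ∀ h ∈ Axw, ∀ G ∈ Axvw, a ^ 2 + 4 * b = x * h →
      (∃ φ : R4 ≃ₐ[ℂ] R4, φ x = x ∧ φ y = y + a * x * v + b * x ^ 2 * w + x ^ 3 * G) ∧
      IsCoord (y + a * x * v + b * x ^ 2 * w + x ^ 3 * G)) ∧
    (∀ m : ℕ, 2 ≤ m → IsCoord (y + x ^ m * v)) ∧
    (∀ a ∈ Axw, ∀ b ∈ Axw, ∀ h ∈ Axw, ∀ G ∈ Axvw, ∀ c : ℂ, c ≠ 0 →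
      a ^ 2 + 4 * b = C c + x * h →
      (IsCoord (y + a * x * v + b * x ^ 2 * w + x ^ 3 * G) ↔ IsCoord (y + x * v)))) ∧
    ((∀ R : Polynomial R4, (∀ n, R.coeff n ∈ Axw) → ∀ d ∈ Axw, ∀ G ∈ Axvw,
      ∃ φ : R4 ≃ₐ[ℂ] R4, φ x = x ∧ φ (y + x ^ 2 * d * w) = Fam R d G) ∧
    (∀ R : Polynomial R4, (∀ n, R.coeff n ∈ Axw) → ∀ G ∈ Axvw,
      (∃ φ : R4 ≃ₐ[ℂ] R4, φ x = x ∧ φ y = Fam R 0 G) ∧ IsCoord (Fam R 0 G)) ∧
    (∀ Q : Polynomial R4, (∀ n, Q.coeff n ∈ Axw) → ∀ G ∈ Axvw,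
      IsCoord (y + x ^ 2 * v * Q.eval (v ^ 2) + x ^ 3 * G)) ∧
    (∀ R : Polynomial R4, (∀ n, R.coeff n ∈ Axw) → ∀ G ∈ Axvw, ∀ c : ℂ, c ≠ 0 →
      (IsCoord (Fam R (C c) G) ↔ IsCoord (y + x * v)))) ∧
    (∀ R : Polynomial R4, (∀ n, R.coeff n ∈ Axw) → ∀ d ∈ Axw, ∀ G ∈ Axvw, ∀ a ∈ Axw, ∀ b ∈ Axw,
      ∀ h ∈ Axw, ∀ G' ∈ Axvw, a ^ 2 + 4 * b = 4 * d + x * h →
      ∃ φ : R4 ≃ₐ[ℂ] R4, φ x = x ∧
        φ (Fam R d G) = y + a * x * v + b * x ^ 2 * w + x ^ 3 * G') :=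
  ⟨VenereauDiscriminant.result, VenereauOddFamily.result,
    fun R hR d hd G hG a ha b hb h hh G' hG' hD => link R hR d hd G hG a ha b hb h hh G' hG' hD⟩

end Vale.Agent.Results.P295.AAllResults
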